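import Vale.Agent.P211.Cert.Pair.Data.PairInnerY.Base

/-!
P211, data: the root `innerY` of the form across the gradient, generated from the exact search.
-/

namespace Vale.Agent.P211.Cert.Pair.PairInnerY

open Vale.Agent.P098.Check6 (Face St ofChunks reach)
open Vale.Agent.P098.Cert6.Kron (RootPar)

/-- A subtree. -/
def tree0 : Check.Tree Check.Leaf :=
  .leaf (.psd ⟨⟨⟨1024, 0, 0⟩, ⟨(-1633), 1, 0⟩, ⟨0, 0, 1⟩⟩, ⟨⟨1, 0, 0⟩, ⟨1633, 1024, 0⟩, ⟨0, 0, 1024⟩⟩, 1024, ⟨2, 4096, 1⟩⟩)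

theorem chunk0 : Check.Good ⟨false, false, false⟩ cfg (reach cfg base []) :=
  Check.check_sound tree0 (by decide +kernel)

end Vale.Agent.P211.Cert.Pair.PairInnerY
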